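import Vale.Agent.P092.H759.TL.TPi
import Vale.Agent.P092.H188.LatP

/-!
P092 (helper759), block [T-LAT], part 3: property (T) of lattices of a finite product, and of ICC
lattices of extensions of finite products.
-/

set_option linter.all false

open Set Filter Topology

namespace Vale.Agent.P092.H759.TL

open Vale.Agent.P092.H962.MX (KazT)

/-- Kazhdan's property passes to images. -/
theorem kazT_surj {E E' : Type} [Group E] [TopologicalSpace E] [Group E'] [TopologicalSpace E']
    (f : E →* E') (hf : Continuous f) (hs : Function.Surjective f) (h : KazT E) : KazT E' := by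
  obtain ⟨Q, κ, hQ, hκ, h⟩ := h
  refine ⟨f '' Q, κ, hQ.image hf, hκ, fun H _ _ _ σ hn hc hinv v => ?_⟩
  obtain ⟨g, hg, h1⟩ := h H (σ.comp f) (fun g v => hn _ v) (fun v => (hc v).comp hf)
    (fun v hv => hinv v fun g' => by
      obtain ⟨g, rfl⟩ := hs g'
      exact hv g) v
  exact ⟨f g, ⟨g, hg, rfl⟩, h1⟩

/-- the two literals of a lattice -/
theorem lat_of {E : Type} [Group E] [TopologicalSpace E] {Λ : Subgroup E}
    (h : H515.St.IsLattice Λ) : UN.IsLattice Λ :=
  ⟨h.disc, h.covol⟩

theorem lat_to {E : Type} [Group E] [TopologicalSpace E] {Λ : Subgroup E}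
    (h : UN.IsLattice Λ) : H515.St.IsLattice Λ :=
  ⟨h.disc, h.covol⟩

/-- **Lattices of a finite product of Kazhdan groups.** -/
theorem propT_of_prod {J : Type} [Fintype J] {G : J → Type} [∀ j, Group (G j)]
    [∀ j, TopologicalSpace (G j)] [∀ j, IsTopologicalGroup (G j)] [∀ j, T2Space (G j)]
    [∀ j, LocallyCompactSpace (G j)] [∀ j, SecondCountableTopology (G j)]
    (hT : ∀ j, KazT (G j)) {Γ : Type} [Group Γ] (i : Γ →* ∀ j, G j)
    (hi : Function.Injective i) (hl : UN.IsLattice i.range) : UN.PropT Γ := by
  classical
  exact propT_of_lattice (kazT_pi hT) i hi hl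

/-- The same for the literal `H515.St.IsLattice`. -/
theorem propT_of_prod' {J : Type} [Fintype J] {G : J → Type} [∀ j, Group (G j)]
    [∀ j, TopologicalSpace (G j)] [∀ j, IsTopologicalGroup (G j)] [∀ j, T2Space (G j)]
    [∀ j, LocallyCompactSpace (G j)] [∀ j, SecondCountableTopology (G j)]
    (hT : ∀ j, KazT (G j)) {Γ : Type} [Group Γ] (i : Γ →* ∀ j, G j)
    (hi : Function.Injective i) (hl : H515.St.IsLattice i.range) : UN.PropT Γ :=
  propT_of_prod hT i hi (lat_of hl)

/-- **ICC lattices of a Kazhdan group with a proper homomorphism to a locally compact group.** -/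
theorem propT_of_proper {E G : Type} [Group E] [TopologicalSpace E] [IsTopologicalGroup E]
    [Group G] [TopologicalSpace G] [IsTopologicalGroup G] [T2Space G] [LocallyCompactSpace G]
    [SecondCountableTopology G] {Γ : Type} [Group Γ]
    (hicc : ∀ g : Γ, g ≠ 1 → Set.Infinite {y : Γ | ∃ h, y = h * g * h⁻¹})
    (f : E →* G) (hf : IsProperMap f) (i : Γ →* E) (hi : Function.Injective i)
    (hl : H515.St.IsLattice i.range) (hE : KazT E) : UN.PropT Γ := by
  haveI := hl.disc
  have hcl : IsClosed (f.range : Set G) := by
    have h2 := hf.isClosedMap _ isClosed_univ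
    rw [image_univ] at h2
    exact h2
  have hce : IsClosedEmbedding (f.range.subtype : f.range → G) := hcl.isClosedEmbedding_subtypeVal
  haveI : LocallyCompactSpace f.range := hce.locallyCompactSpace
  haveI : SecondCountableTopology f.range := hce.isEmbedding.secondCountableTopology
  have hπc : Continuous f.rangeRestrict := hf.continuous.subtype_mk _
  have hπp : ∀ C : Set f.range, IsCompact C → IsCompact (f.rangeRestrict ⁻¹' C) := by
    intro C hC
    have h1 := hf.isCompact_preimage (hC.image hce.continuous)
    have h2 : f.rangeRestrict ⁻¹' C = f ⁻¹' (f.range.subtype '' C) := by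
      ext x
      constructor
      · intro hx
        exact ⟨_, hx, rfl⟩
      · rintro ⟨y, hy, hyx⟩
        have : f.rangeRestrict x = y := Subtype.ext hyx.symm
        rw [mem_preimage, this]
        exact hy
    rw [h2]
    exact h1
  have h3 : H515.St.IsLattice (i.range.map f.rangeRestrict) :=
    H793.lattice_map f.rangeRestrict hπc f.rangeRestrict_surjective hl
      (H188.LatP.disc_map f.rangeRestrict hπp i.range)
  have h4 : Function.Injective (f.comp i) := H188.LatP.inj_map hicc f hf i hi hl.disc
  have h5 : Function.Injective (f.rangeRestrict.comp i) := fun a b hab =>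
    h4 (congrArg Subtype.val hab)
  refine propT_of_lattice (kazT_surj f.rangeRestrict hπc f.rangeRestrict_surjective hE)
    (f.rangeRestrict.comp i) h5 ?_
  rw [MonoidHom.range_comp]
  exact lat_of h3

/-- **[T-LAT], the form of the letters of P092**: ICC lattices of a Kazhdan group `E` with a proper
homomorphism to a finite product of locally compact groups. -/
theorem propT_of_ext {J : Type} [Fintype J] {G : J → Type} [∀ j, Group (G j)]
    [∀ j, TopologicalSpace (G j)] [∀ j, IsTopologicalGroup (G j)] [∀ j, T2Space (G j)]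
    [∀ j, LocallyCompactSpace (G j)] [∀ j, SecondCountableTopology (G j)]
    {E : Type} [Group E] [TopologicalSpace E] [IsTopologicalGroup E] {Γ : Type} [Group Γ]
    (hicc : ∀ g : Γ, g ≠ 1 → Set.Infinite {y : Γ | ∃ h, y = h * g * h⁻¹})
    (f : E →* ∀ j, G j) (hf : IsProperMap f) (i : Γ →* E) (hi : Function.Injective i)
    (hl : UN.IsLattice i.range) (hE : KazT E) : UN.PropT Γ :=
  propT_of_proper hicc f hf i hi (lat_to hl) hE

end Vale.Agent.P092.H759.TL
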