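import Vale.Agent.P092.UN.StM

/-!
P092 (helper759): discrete groups with property (T) are finitely generated.
-/

set_option linter.all false

open scoped InnerProductSpace ENNReal
open Set Filter Topology

namespace Vale.Agent.P092.H759.TL

section perm

variable {X : Type}

theorem memlp_comp (e : X ≃ X) (f : lp (fun _ : X => ℂ) 2) :
    Memℓp (fun x => f (e x)) 2 := by
  have h1 : (0 : ℝ) < (2 : ℝ≥0∞).toReal := by norm_num
  have h2 := (memℓp_gen_iff h1).1 (lp.memℓp f)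
  exact (memℓp_gen_iff h1).2 (e.summable_iff.2 h2)

/-- the operator of a permutation -/
noncomputable def pm (e : X ≃ X) : lp (fun _ : X => ℂ) 2 →ₗ[ℂ] lp (fun _ : X => ℂ) 2 where
  toFun f := ⟨fun x => f (e x), memlp_comp e f⟩
  map_add' f f' := by ext x; rfl
  map_smul' c f := by ext x; rfl

theorem pm_apply (e : X ≃ X) (f : lp (fun _ : X => ℂ) 2) (x : X) : pm e f x = f (e x) := rfl

theorem norm_pm (e : X ≃ X) (f : lp (fun _ : X => ℂ) 2) : ‖pm e f‖ = ‖f‖ := by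
  have h1 : (0 : ℝ) < (2 : ℝ≥0∞).toReal := by norm_num
  rw [lp.norm_eq_tsum_rpow h1, lp.norm_eq_tsum_rpow h1]
  congr 1
  exact e.tsum_eq fun x => ‖f x‖ ^ (2 : ℝ≥0∞).toReal

/-- the operator of a permutation, continuous -/
noncomputable def pmC (e : X ≃ X) : lp (fun _ : X => ℂ) 2 →L[ℂ] lp (fun _ : X => ℂ) 2 :=
  (⟨pm e, norm_pm e⟩ : lp (fun _ : X => ℂ) 2 →ₗᵢ[ℂ] lp (fun _ : X => ℂ) 2).toContinuousLinearMap

theorem pmC_apply (e : X ≃ X) (f : lp (fun _ : X => ℂ) 2) (x : X) : pmC e f x = f (e x) := rfl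

variable {Γ : Type} [Group Γ] [MulAction Γ X]

/-- the permutation representation -/
noncomputable def prm (Γ X : Type) [Group Γ] [MulAction Γ X] :
    Γ →* (lp (fun _ : X => ℂ) 2 →L[ℂ] lp (fun _ : X => ℂ) 2) where
  toFun g := pmC (MulAction.toPerm g⁻¹)
  map_one' := by
    ext f x
    change f ((1 : Γ)⁻¹ • x) = f x
    rw [inv_one, one_smul]
  map_mul' g g' := by
    ext f x
    change f ((g * g')⁻¹ • x) = f (g'⁻¹ • g⁻¹ • x)
    rw [mul_inv_rev, mul_smul]

theorem prm_apply (g : Γ) (f : lp (fun _ : X => ℂ) 2) (x : X) : prm Γ X g f x = f (g⁻¹ • x) := rfl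

end perm

/-- **Discrete groups with property (T) are finitely generated.** -/
theorem fg_of_propT {Γ : Type} [Group Γ] (h : UN.PropT Γ) : Group.FG Γ := by
  classical
  obtain ⟨Q, κ, hκ, hb⟩ := h
  obtain ⟨H, hH⟩ : ∃ H : Subgroup Γ, H = Subgroup.closure (Q : Set Γ) := ⟨_, rfl⟩
  have hfin : Finite (Γ ⧸ H) := by
    by_contra hinf
    rw [not_finite_iff_infinite] at hinf
    obtain ⟨g, hg, hge⟩ := hb (lp (fun _ : Γ ⧸ H => ℂ) 2) (prm Γ (Γ ⧸ H))
      (fun g v => norm_pm _ _) (fun v hv => by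
        have h1 : ∀ x, v x = v ((1 : Γ) : Γ ⧸ H) := by
          intro x
          obtain ⟨g, rfl⟩ := QuotientGroup.mk_surjective x
          have h2 := hv g
          have h3 : prm Γ (Γ ⧸ H) g v (g : Γ ⧸ H) = v (g : Γ ⧸ H) := by rw [h2]
          rw [prm_apply] at h3
          rw [← h3]
          have h3' : g⁻¹ • (g : Γ ⧸ H) = ((1 : Γ) : Γ ⧸ H) := by
            change ((g⁻¹ * g : Γ) : Γ ⧸ H) = _
            rw [inv_mul_cancel]
          rw [h3']
        have h4 : (0 : ℝ) < (2 : ℝ≥0∞).toReal := by norm_num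
        have h5 := (memℓp_gen_iff h4).1 (lp.memℓp v)
        have h6 : Summable fun _ : Γ ⧸ H => ‖v ((1 : Γ) : Γ ⧸ H)‖ ^ (2 : ℝ≥0∞).toReal := by
          refine h5.congr fun x => ?_
          rw [h1 x]
        have h7 := (summable_const_iff _).1 h6
        have h8 : ‖v ((1 : Γ) : Γ ⧸ H)‖ = 0 := by
          by_contra h9
          have h10 : 0 < ‖v ((1 : Γ) : Γ ⧸ H)‖ := lt_of_le_of_ne (norm_nonneg _) (Ne.symm h9)
          exact (Real.rpow_pos_of_pos h10 _).ne' h7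
        ext x
        rw [h1 x, norm_eq_zero.1 h8]
        rfl)
      (lp.single 2 ((1 : Γ) : Γ ⧸ H) 1)
    have hgH : g ∈ H := by rw [hH]; exact Subgroup.subset_closure hg
    have h1 : prm Γ (Γ ⧸ H) g (lp.single 2 ((1 : Γ) : Γ ⧸ H) 1) =
        lp.single 2 ((1 : Γ) : Γ ⧸ H) 1 := by
      ext x
      rw [prm_apply, lp.single_apply, lp.single_apply]
      have h2 : g⁻¹ • x = ((1 : Γ) : Γ ⧸ H) ↔ x = ((1 : Γ) : Γ ⧸ H) := by
        rw [inv_smul_eq_iff]
        have h3 : g • ((1 : Γ) : Γ ⧸ H) = ((1 : Γ) : Γ ⧸ H) := by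
          change ((g * 1 : Γ) : Γ ⧸ H) = _
          rw [mul_one, QuotientGroup.eq, mul_one]
          exact H.inv_mem hgH
        rw [h3]
      by_cases hx : x = ((1 : Γ) : Γ ⧸ H)
      · rw [h2.2 hx, hx]
      · rw [Pi.single_eq_of_ne hx, Pi.single_eq_of_ne fun h4 => hx (h2.1 h4)]
    rw [h1, sub_self, norm_zero] at hge
    have h3 : ‖(lp.single 2 ((1 : Γ) : Γ ⧸ H) (1 : ℂ) : lp (fun _ : Γ ⧸ H => ℂ) 2)‖ = 1 := by
      rw [lp.norm_single (by norm_num), norm_one]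
    rw [h3, mul_one] at hge
    exact absurd hge (not_le.2 hκ)
  refine Group.fg_iff.2 ⟨(Q : Set Γ) ∪ range (Quotient.out : Γ ⧸ H → Γ), ?_,
    Q.finite_toSet.union (finite_range _)⟩
  rw [eq_top_iff]
  intro g _
  have h1 : (Quotient.out (g : Γ ⧸ H) : Γ)⁻¹ * g ∈ H := by
    rw [← QuotientGroup.eq]
    exact QuotientGroup.out_eq' _
  have h2 : H ≤ Subgroup.closure ((Q : Set Γ) ∪ range (Quotient.out : Γ ⧸ H → Γ)) := by
    rw [hH]
    exact Subgroup.closure_mono subset_union_left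
  have h3 : (Quotient.out (g : Γ ⧸ H) : Γ) ∈
      Subgroup.closure ((Q : Set Γ) ∪ range (Quotient.out : Γ ⧸ H → Γ)) :=
    Subgroup.subset_closure (Or.inr ⟨_, rfl⟩)
  have h4 := Subgroup.mul_mem _ h3 (h2 h1)
  rwa [mul_inv_cancel_left] at h4

end Vale.Agent.P092.H759.TL
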