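import Vale.Agent.P092.H103.Lat2
import Vale.Agent.P092.H962.MX.KazT
import Vale.Agent.P092.UN.StM

/-!
P092 (helper759), block [T-LAT]: Kazhdan's property (T) passes to lattices (letters `KazT`, `PropT`;
the induced representation is helper103's).
-/

set_option linter.all false

open scoped InnerProductSpace ENNReal
open Set Filter Topology MeasureTheory ContinuousLinearMap

namespace Vale.Agent.P092.H759.TL

open Vale.Agent.P092.H790 Vale.Agent.P092.H85 Vale.Agent.P092.H103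
open Vale.Agent.P092.H962.MX (KazT)

section gen

variable {G : Type} [Group G] {H : Type} [NormedAddCommGroup H] [InnerProductSpace ℂ H]
  [CompleteSpace H] {σ : G →* (H →L[ℂ] H)}

theorem adj_of_norm (h : ∀ g v, ‖σ g v‖ = ‖v‖) (g : G) : adjoint (σ g) = σ g⁻¹ := by
  have h1 : adjoint (σ g) * σ g = 1 := (norm_map_iff_adjoint_comp_self (σ g)).1 (h g)
  have h2 : σ g * σ g⁻¹ = 1 := by rw [← map_mul, mul_inv_cancel, map_one]
  calc adjoint (σ g) = adjoint (σ g) * (σ g * σ g⁻¹) := by rw [h2, mul_one]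
    _ = σ g⁻¹ := by rw [← mul_assoc, h1, one_mul]

theorem crep_cont [TopologicalSpace G] [IsTopologicalGroup G] (h : CRep σ) (v : H) :
    Continuous fun g => σ g v := by
  rw [continuous_iff_continuousAt]
  intro g₀
  have h1 : Tendsto (fun g => g₀⁻¹ * g) (𝓝 g₀) (𝓝 1) := by
    have h2 : Continuous fun g : G => g₀⁻¹ * g := by fun_prop
    have h3 := h2.tendsto g₀
    rwa [inv_mul_cancel] at h3
  have h4 := ((σ g₀).continuous.tendsto v).comp ((h.cont v).comp h1)
  refine h4.congr fun g => ?_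
  change (σ g₀ * σ (g₀⁻¹ * g)) v = σ g v
  rw [← map_mul, mul_inv_cancel_left]

end gen

section prob

variable {E : Type} [Group E] [TopologicalSpace E] [IsTopologicalGroup E] {Γ : Subgroup E}
  [m : MeasurableSpace (E ⧸ Γ)] [hm : BorelSpace (E ⧸ Γ)]

theorem exists_prob (h : UN.IsLattice Γ) :
    ∃ (ν : Measure (E ⧸ Γ)) (_ : IsProbabilityMeasure ν), ∀ g : E, ν.map (fun x => g • x) = ν := by
  obtain ⟨ν, hν0, hνf, hν⟩ := h.covol
  have hb : m = borel (E ⧸ Γ) := hm.measurable_eq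
  subst hb
  letI : MeasurableSpace (E ⧸ Γ) := borel _
  haveI : BorelSpace (E ⧸ Γ) := ⟨rfl⟩
  have hν1 : ν Set.univ ≠ 0 := fun h => hν0 (Measure.measure_univ_eq_zero.mp h)
  have hP : IsProbabilityMeasure ((ν Set.univ)⁻¹ • ν) := by
    constructor
    rw [Measure.smul_apply, smul_eq_mul]
    exact ENNReal.inv_mul_cancel hν1 hνf.ne
  refine ⟨(ν Set.univ)⁻¹ • ν, hP, fun g => ?_⟩
  have hc : Continuous fun x : E ⧸ Γ => g • x := continuous_const_smul g
  rw [Measure.map_smul]
  congr 1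
  refine Measure.ext fun s hs => ?_
  rw [Measure.map_apply hc.measurable hs]
  exact hν g s hs

end prob

/-- **Property (T) passes to lattices.** -/
theorem propT_sub {E : Type} [Group E] [TopologicalSpace E] [IsTopologicalGroup E]
    [LocallyCompactSpace E] [SecondCountableTopology E] [T2Space E] (hE : KazT E)
    {Γ : Subgroup E} (h : UN.IsLattice Γ) : UN.PropT Γ := by
  classical
  obtain ⟨Q, κ, hQ, hκ, hb⟩ := hE
  borelize E
  haveI := h.disc
  letI : MeasurableSpace (E ⧸ Γ) := borel _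
  haveI : BorelSpace (E ⧸ Γ) := ⟨rfl⟩
  haveI : SecondCountableTopology Γ := inferInstance
  haveI : TopologicalSpace.SeparableSpace Γ := inferInstance
  haveI : Countable Γ := TopologicalSpace.separableSpace_iff_countable.1 inferInstance
  obtain ⟨ν, hP, hν⟩ := exists_prob h
  have hε : 0 < (κ / 8) ^ 2 := by positivity
  obtain ⟨Q₀, hQ₀⟩ := coc_tight (Λ := Γ) ν hν hQ hε
  refine ⟨insert 1 Q₀, κ / 4, by positivity, fun K _ _ _ π hn hinv v => ?_⟩
  by_cases hv : v = 0
  · refine ⟨1, Finset.mem_insert_self _ _, ?_⟩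
    rw [hv, norm_zero, mul_zero]
    exact norm_nonneg _
  by_contra hcon
  push Not at hcon
  have hv0 : 0 < ‖v‖ := norm_pos_iff.2 hv
  have hπ := adj_of_norm hn
  have hcr := irep_crep hν hπ
  obtain ⟨ζ, hζ⟩ : ∃ ζ : Lp K 2 ν, ζ = Lp.const 2 ν v := ⟨_, rfl⟩
  obtain ⟨g, hg, hge⟩ := hb (Lp K 2 ν) (irep hν hπ)
    (fun g ξ => Vale.Agent.P092.H885.u_norm hcr.adj g ξ) (crep_cont hcr) (fun η hη => by
      by_contra h0
      obtain ⟨w, hw, hwi⟩ := exists_inv hν hπ η hη h0
      exact hw (hinv w hwi)) ζ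
  have hc0 : 0 ≤ κ / 4 * ‖v‖ := by positivity
  have h1 : ‖irep hν hπ g ζ - ζ‖ ≤ κ / 4 * ‖v‖ + 2 * ‖v‖ * Real.sqrt ((κ / 8) ^ 2) := by
    rw [hζ]
    exact const_disp hν hπ v hc0 (F := Q₀)
      (fun s hs => (hcon s (Finset.mem_insert_of_mem hs)).le) g (hQ₀ g hg)
  rw [Real.sqrt_sq (by positivity)] at h1
  have hζn : ‖ζ‖ = ‖v‖ := by
    have := Lp.norm_const' 2 ν v (by norm_num) (by norm_num)
    rw [hζ, this]
    simp
  rw [hζn] at hge
  have h2 := hge.trans h1
  nlinarith [mul_pos hκ hv0]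

/-- `PropT` is invariant under isomorphisms -/
theorem propT_equiv {Γ Γ' : Type} [Group Γ] [Group Γ'] (e : Γ ≃* Γ') (h : UN.PropT Γ) :
    UN.PropT Γ' := by
  obtain ⟨Q, κ, hκ, hb⟩ := h
  refine ⟨Q.map e.toEquiv.toEmbedding, κ, hκ, fun H _ _ _ σ hn hinv v => ?_⟩
  obtain ⟨g, hg, hge⟩ := hb H (σ.comp e.toMonoidHom) (fun g v => hn (e g) v) (fun w hw =>
    hinv w fun g => by
      have h1 := hw (e.symm g)
      change σ (e (e.symm g)) w = w at h1
      rwa [e.apply_symm_apply] at h1) v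
  exact ⟨e g, Finset.mem_map.2 ⟨g, hg, rfl⟩, hge⟩

/-- **[T-LAT]**: a lattice of a Kazhdan group is a Kazhdan group. -/
theorem propT_of_lattice {E : Type} [Group E] [TopologicalSpace E] [IsTopologicalGroup E]
    [LocallyCompactSpace E] [SecondCountableTopology E] [T2Space E] (hE : KazT E)
    {Γ : Type} [Group Γ] (i : Γ →* E) (hi : Function.Injective i) (h : UN.IsLattice i.range) :
    UN.PropT Γ :=
  propT_equiv (MonoidHom.ofInjective hi).symm (propT_sub hE h)

end Vale.Agent.P092.H759.TL
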