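import Vale.Agent.P092.H759.TL.TLat

/-!
P092 (helper759), block [T-LAT], part 2: Kazhdan's property (T) for finite products.
-/

set_option linter.all false

open scoped InnerProductSpace
open Set Filter Topology ContinuousLinearMap

namespace Vale.Agent.P092.H759.TL

open Vale.Agent.P092.H962.MX (KazT)

section rep

variable {G : Type} [Group G] {H : Type} [NormedAddCommGroup H] [InnerProductSpace ℂ H]
  [CompleteSpace H] {σ : G →* (H →L[ℂ] H)}

/-- the fixed vectors of a family of elements -/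
def fixV (σ : G →* (H →L[ℂ] H)) (A : Set G) : Submodule ℂ H where
  carrier := {v | ∀ g ∈ A, σ g v = v}
  add_mem' := fun {a b} ha hb g hg => by rw [map_add, ha g hg, hb g hg]
  zero_mem' := fun g _ => map_zero _
  smul_mem' := fun c v hv g hg => by rw [map_smul, hv g hg]

theorem mem_fixV {A : Set G} {v : H} : v ∈ fixV σ A ↔ ∀ g ∈ A, σ g v = v := Iff.rfl

theorem isClosed_fixV (A : Set G) : IsClosed (fixV σ A : Set H) := by
  have e : (fixV σ A : Set H) = ⋂ g ∈ A, {v | σ g v = v} := by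
    ext v
    simp only [mem_iInter, mem_setOf_eq, SetLike.mem_coe]
    exact mem_fixV
  rw [e]
  exact isClosed_biInter fun g _ => isClosed_eq (σ g).continuous continuous_id

theorem decomp {W : Submodule ℂ H} (hW : IsClosed (W : Set H)) (v : H) :
    ∃ a ∈ W, ∃ b ∈ Wᗮ, v = a + b := by
  haveI : CompleteSpace W := hW.completeSpace_coe
  exact Submodule.exists_add_mem_mem_orthogonal v

theorem inner_map (h : ∀ g v, ‖σ g v‖ = ‖v‖) (g : G) (v w : H) :
    ⟪σ g v, σ g w⟫_ℂ = ⟪v, w⟫_ℂ := by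
  rw [← adjoint_inner_right, adj_of_norm h]
  change ⟪v, (σ g⁻¹ * σ g) w⟫_ℂ = _
  rw [← map_mul, inv_mul_cancel, map_one]
  rfl

/-- the orthogonal of an invariant space is invariant -/
theorem orth_inv (h : ∀ g v, ‖σ g v‖ = ‖v‖) {W : Submodule ℂ H}
    (hW : ∀ g, ∀ v ∈ W, σ g v ∈ W) (g : G) {v : H} (hv : v ∈ Wᗮ) : σ g v ∈ Wᗮ := by
  rw [Submodule.mem_orthogonal] at hv ⊢
  intro w hw
  have h1 := hv (σ g⁻¹ w) (hW _ w hw)
  rw [← inner_map h g] at h1
  have h2 : σ g (σ g⁻¹ w) = w := by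
    change (σ g * σ g⁻¹) w = w
    rw [← map_mul, mul_inv_cancel, map_one]
    rfl
  rwa [h2] at h1

/-- the two components of a displacement -/
theorem disp_le (h : ∀ g v, ‖σ g v‖ = ‖v‖) {W : Submodule ℂ H}
    (hW : ∀ g, ∀ v ∈ W, σ g v ∈ W) (g : G) {a b : H} (ha : a ∈ W) (hb : b ∈ Wᗮ) :
    ‖σ g a - a‖ ≤ ‖σ g (a + b) - (a + b)‖ := by
  have h1 : σ g (a + b) - (a + b) = (σ g a - a) + (σ g b - b) := by rw [map_add]; abel
  have h2 : ⟪σ g a - a, σ g b - b⟫_ℂ = 0 :=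
    Submodule.inner_right_of_mem_orthogonal (W.sub_mem (hW g a ha) ha)
      (Wᗮ.sub_mem (orth_inv h hW g hb) hb)
  have h3 := norm_add_sq_eq_norm_sq_add_norm_sq_of_inner_eq_zero _ _ h2
  rw [h1]
  have h4 : ‖σ g a - a‖ * ‖σ g a - a‖ ≤
      ‖(σ g a - a) + (σ g b - b)‖ * ‖(σ g a - a) + (σ g b - b)‖ := by
    rw [h3]
    nlinarith [norm_nonneg (σ g b - b)]
  exact (mul_self_le_mul_self_iff (norm_nonneg _) (norm_nonneg _)).2 h4

/-- a fixed vector: its component is fixed -/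
theorem fix_comp (h : ∀ g v, ‖σ g v‖ = ‖v‖) {W : Submodule ℂ H}
    (hW : ∀ g, ∀ v ∈ W, σ g v ∈ W) {g : G} {a b : H} (ha : a ∈ W) (hb : b ∈ Wᗮ)
    (hf : σ g (a + b) = a + b) : σ g a = a := by
  have h1 := disp_le h hW g ha hb
  rw [hf, sub_self, norm_zero] at h1
  exact sub_eq_zero.1 (norm_le_zero_iff.1 h1)

/-- subrepresentations -/
noncomputable def subrep (σ : G →* (H →L[ℂ] H)) (W : Submodule ℂ H)
    (hW : ∀ g, ∀ v ∈ W, σ g v ∈ W) : G →* (W →L[ℂ] W) where
  toFun g := ((σ g).comp W.subtypeL).codRestrict W fun v => hW g v v.2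
  map_one' := by
    ext v
    change σ 1 (v : H) = v
    rw [map_one]
    rfl
  map_mul' g g' := by
    ext v
    change σ (g * g') (v : H) = σ g (σ g' v)
    rw [map_mul]
    rfl

end rep

/-- Kazhdan pairs -/
def KPair (G : Type) [Group G] [TopologicalSpace G] (Q : Set G) (κ : ℝ) : Prop :=
  ∀ (H : Type) [NormedAddCommGroup H] [InnerProductSpace ℂ H] [CompleteSpace H]
    (σ : G →* (H →L[ℂ] H)), (∀ g v, ‖σ g v‖ = ‖v‖) → (∀ v, Continuous fun g => σ g v) →
    (∀ v, (∀ g, σ g v = v) → v = 0) → ∀ v, ∃ g ∈ Q, κ * ‖v‖ ≤ ‖σ g v - v‖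

theorem KPair.orth {G : Type} [Group G] [TopologicalSpace G] {Q : Set G} {κ : ℝ}
    (hK : KPair G Q κ) {H : Type} [NormedAddCommGroup H] [InnerProductSpace ℂ H]
    [CompleteSpace H] {σ : G →* (H →L[ℂ] H)} (hn : ∀ g v, ‖σ g v‖ = ‖v‖)
    (hc : ∀ v, Continuous fun g => σ g v) {v : H} (hv : v ∈ (fixV σ univ)ᗮ) :
    ∃ g ∈ Q, κ * ‖v‖ ≤ ‖σ g v - v‖ := by
  have hW : ∀ g, ∀ v ∈ fixV σ univ, σ g v ∈ fixV σ univ := fun g v hv => by
    rw [hv g (mem_univ _)]
    exact hv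
  have hW' : ∀ g, ∀ v ∈ (fixV σ univ)ᗮ, σ g v ∈ (fixV σ univ)ᗮ := fun g v hv =>
    orth_inv hn hW g hv
  obtain ⟨g, hg, h⟩ := hK ((fixV σ univ)ᗮ : Submodule ℂ H) (subrep σ _ hW')
    (fun g v => hn g v) (fun v => Continuous.subtype_mk (hc v) _) (fun w hw => by
      have h1 : (w : H) ∈ fixV σ univ := fun g _ => congrArg Subtype.val (hw g)
      have h2 := (Submodule.mem_orthogonal _ _).1 w.2 w h1
      exact Subtype.ext (inner_self_eq_zero.1 h2)) ⟨v, hv⟩
  exact ⟨g, hg, h⟩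

section pi

variable {J : Type} [Fintype J] [DecidableEq J] {G : J → Type} [∀ j, Group (G j)]
  [∀ j, TopologicalSpace (G j)]

/-- the elements of some coordinates -/
def crd (G : J → Type) [∀ j, Group (G j)] (S : Finset J) : Set (∀ j, G j) :=
  {p | ∃ j ∈ S, ∃ g : G j, p = Pi.mulSingle j g}

theorem crd_conj {S : Finset J} (p : ∀ j, G j) {a : ∀ j, G j} (ha : a ∈ crd G S) :
    p⁻¹ * a * p ∈ crd G S := by
  obtain ⟨j, hj, g, rfl⟩ := ha
  refine ⟨j, hj, (p j)⁻¹ * g * p j, ?_⟩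
  funext i
  by_cases hi : i = j
  · subst hi
    simp
  · simp [hi]

theorem fix_crd_inv {S : Finset J} {H : Type} [NormedAddCommGroup H] [InnerProductSpace ℂ H]
    {σ : (∀ j, G j) →* (H →L[ℂ] H)} (p : ∀ j, G j) {v : H} (hv : v ∈ fixV σ (crd G S)) :
    σ p v ∈ fixV σ (crd G S) := by
  intro a ha
  have h1 : σ (p⁻¹ * a * p) v = v := hv _ (crd_conj p ha)
  calc σ a (σ p v) = (σ a * σ p) v := rfl
    _ = (σ p * σ (p⁻¹ * a * p)) v := by rw [← map_mul, ← map_mul]; congr 2; group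
    _ = σ p v := by
      change σ p (σ (p⁻¹ * a * p) v) = _
      rw [h1]

theorem kaz_fin (hT : ∀ j, KazT (G j)) (S : Finset J) :
    ∃ (Q : Set (∀ j, G j)) (κ : ℝ), IsCompact Q ∧ 0 < κ ∧
      ∀ (H : Type) [NormedAddCommGroup H] [InnerProductSpace ℂ H] [CompleteSpace H]
        (σ : (∀ j, G j) →* (H →L[ℂ] H)), (∀ g v, ‖σ g v‖ = ‖v‖) →
        (∀ v, Continuous fun g => σ g v) →
        ∀ v ∈ (fixV σ (crd G S))ᗮ, ∃ g ∈ Q, κ * ‖v‖ ≤ ‖σ g v - v‖ := by
  induction S using Finset.induction_on with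
  | empty =>
    refine ⟨{1}, 1, isCompact_singleton, one_pos, fun H _ _ _ σ hn hc v hv => ⟨1, rfl, ?_⟩⟩
    have h1 : v ∈ fixV σ (crd G ∅) := by
      rintro a ⟨j, hj, -⟩
      exact absurd hj (Finset.notMem_empty j)
    have h2 := (Submodule.mem_orthogonal _ _).1 hv v h1
    rw [inner_self_eq_zero.1 h2, norm_zero, mul_zero]
    exact norm_nonneg _
  | insert j S hj ih =>
    obtain ⟨Q₁, κ₁, hQ₁, hκ₁, h₁⟩ := ih
    obtain ⟨Q₂, κ₂, hQ₂, hκ₂, h₂⟩ := hT j
    have hcs : Continuous fun g : G j => (Pi.mulSingle j g : ∀ j, G j) := continuous_mulSingle j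
    refine ⟨Q₁ ∪ (fun g : G j => (Pi.mulSingle j g : ∀ j, G j)) '' Q₂, min κ₁ κ₂ / 2,
      hQ₁.union (hQ₂.image hcs), by have := lt_min hκ₁ hκ₂; positivity,
      fun H _ _ _ σ hn hc v hv => ?_⟩
    set W := fixV σ (crd G {j}) with hWd
    have hW : ∀ g, ∀ v ∈ W, σ g v ∈ W := fun g v hv => fix_crd_inv g hv
    obtain ⟨a, ha, b, hb, rfl⟩ := decomp (isClosed_fixV (σ := σ) (crd G {j})) v
    have hm : min κ₁ κ₂ ≤ κ₁ := min_le_left _ _
    have hm' : min κ₁ κ₂ ≤ κ₂ := min_le_right _ _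
    have hm0 : 0 < min κ₁ κ₂ := lt_min hκ₁ hκ₂
    have htri : ‖a + b‖ ≤ ‖a‖ + ‖b‖ := norm_add_le _ _
    by_cases hab : ‖b‖ ≤ ‖a‖
    · -- the part fixed by `G j`
      have ha' : a ∈ (fixV σ (crd G S))ᗮ := by
        rw [Submodule.mem_orthogonal]
        intro w hw
        obtain ⟨w₁, hw₁, w₂, hw₂, rfl⟩ := decomp (isClosed_fixV (σ := σ) (crd G {j})) w
        have h3 : w₁ ∈ fixV σ (crd G (insert j S)) := by
          rintro p ⟨i, hi, g, rfl⟩
          rcases Finset.mem_insert.1 hi with rfl | hi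
          · exact hw₁ _ ⟨i, Finset.mem_singleton_self i, g, rfl⟩
          · exact fix_comp hn hW hw₁ hw₂ (hw _ ⟨i, hi, g, rfl⟩)
        have h4 := (Submodule.mem_orthogonal _ _).1 hv w₁ h3
        rw [inner_add_right, Submodule.inner_right_of_mem_orthogonal hw₁ hb, add_zero] at h4
        rw [inner_add_left, h4, zero_add]
        exact Submodule.inner_left_of_mem_orthogonal ha hw₂
      obtain ⟨g, hg, h3⟩ := h₁ H σ hn hc a ha'
      refine ⟨g, Or.inl hg, ?_⟩
      have h4 := disp_le hn hW g ha hb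
      have h5 : min κ₁ κ₂ / 2 * ‖a + b‖ ≤ κ₁ * ‖a‖ := by
        have h6 : ‖a + b‖ ≤ 2 * ‖a‖ := by linarith
        calc min κ₁ κ₂ / 2 * ‖a + b‖ ≤ min κ₁ κ₂ / 2 * (2 * ‖a‖) :=
              mul_le_mul_of_nonneg_left h6 (by positivity)
          _ = min κ₁ κ₂ * ‖a‖ := by ring
          _ ≤ κ₁ * ‖a‖ := mul_le_mul_of_nonneg_right hm (norm_nonneg _)
      exact h5.trans (h3.trans h4)
    · -- the other part
      push Not at hab
      have hfx : fixV (σ.comp (MonoidHom.mulSingle G j)) univ = W := by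
        ext w
        constructor
        · rintro h p ⟨i, hi, g, rfl⟩
          rw [Finset.mem_singleton] at hi
          subst hi
          exact h g (mem_univ _)
        · intro h g _
          exact h _ ⟨j, Finset.mem_singleton_self j, g, rfl⟩
      have hb' : b ∈ (fixV (σ.comp (MonoidHom.mulSingle G j)) univ)ᗮ := by rwa [hfx]
      obtain ⟨g, hg, h3⟩ := KPair.orth (Q := Q₂) (κ := κ₂) h₂
        (σ := σ.comp (MonoidHom.mulSingle G j)) (fun g v => hn _ v)
        (fun v => (hc v).comp hcs) hb'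
      refine ⟨Pi.mulSingle j g, Or.inr ⟨g, hg, rfl⟩, ?_⟩
      have h4 : σ (Pi.mulSingle j g) a = a := ha _ ⟨j, Finset.mem_singleton_self j, g, rfl⟩
      have h5 : σ (Pi.mulSingle j g) (a + b) - (a + b) = σ (Pi.mulSingle j g) b - b := by
        rw [map_add, h4]
        abel
      rw [h5]
      have h6 : min κ₁ κ₂ / 2 * ‖a + b‖ ≤ κ₂ * ‖b‖ := by
        have h7 : ‖a + b‖ ≤ 2 * ‖b‖ := by linarith
        calc min κ₁ κ₂ / 2 * ‖a + b‖ ≤ min κ₁ κ₂ / 2 * (2 * ‖b‖) :=
              mul_le_mul_of_nonneg_left h7 (by positivity)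
          _ = min κ₁ κ₂ * ‖b‖ := by ring
          _ ≤ κ₂ * ‖b‖ := mul_le_mul_of_nonneg_right hm' (norm_nonneg _)
      exact h6.trans h3

/-- **Finite products of Kazhdan groups.** -/
theorem kazT_pi (hT : ∀ j, KazT (G j)) : KazT (∀ j, G j) := by
  obtain ⟨Q, κ, hQ, hκ, h⟩ := kaz_fin hT Finset.univ
  refine ⟨Q, κ, hQ, hκ, fun H _ _ _ σ hn hc hinv v => h H σ hn hc v ?_⟩
  rw [Submodule.mem_orthogonal]
  intro w hw
  have h1 : w = 0 := by
    refine hinv w fun p => ?_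
    let T : Subgroup (∀ j, G j) :=
      { carrier := {p | σ p w = w}
        one_mem' := by
          change σ 1 w = w
          rw [map_one]
          rfl
        mul_mem' := fun {a b} ha hb => by
          change σ (a * b) w = w
          rw [map_mul]
          change σ a (σ b w) = w
          have hb' : σ b w = w := hb
          rw [hb']
          exact ha
        inv_mem' := fun {a} ha => by
          change σ a⁻¹ w = w
          have ha' : σ a w = w := ha
          conv_lhs => rw [← ha']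
          change (σ a⁻¹ * σ a) w = w
          rw [← map_mul, inv_mul_cancel, map_one]
          rfl }
    have h2 : p ∈ T := Subgroup.pi_mem_of_mulSingle_mem p fun j =>
      hw _ ⟨j, Finset.mem_univ j, p j, rfl⟩
    exact h2
  rw [h1, inner_zero_left]

end pi

end Vale.Agent.P092.H759.TL
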